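import Vale.Agent.P173G80.Defs
import Vale.Agent.P173F.ResDefs
import Vale.Agent.P173G80.Main

namespace Vale.Agent.Results.P173.AAGdThree

open Vale.Agent.P173G Vale.Agent.P173F CategoryTheory

universe u v

/-- **The Eilenberg–Ganea conjecture is false: a group with `cd Γ = 2` and `gd Γ = 3`.** The group
is finitely generated, residually finite, has a finite free resolution of length two, and all its
subgroups of finite index are counterexamples too. -/
theorem result : (¬ ∀ (Γ : Type) [Group Γ], cd Γ = 2 → gd.{u, v} Γ = 2) ∧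
    (∃ (Γ : Type) (_ : Group Γ), Group.FG Γ ∧ Group.ResiduallyFinite Γ ∧
      cd Γ = 2 ∧ gd.{u, v} Γ = 3 ∧ HasFiniteFreeResolutionTwo Γ ∧
      ∀ Δ : Subgroup Γ, Δ.FiniteIndex → cd Δ = 2 ∧ gd.{u, v} Δ = 3 ∧
        ∀ (H : Type) [Group H] (f : Δ →* H), Function.Injective f → 3 ≤ gd.{u, v} H) ∧
    ∀ (Γ : Type) [Group Γ], (cd Γ : WithBot ℕ∞) = projectiveDimension (Rep.trivial ℤ Γ ℤ) :=
  main

end Vale.Agent.Results.P173.AAGdThree
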