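import Vale.Agent.P173.GdDefs
import Vale.Agent.P173.H312.Defs
import Vale.Agent.P173F.ResDefs
import Vale.Agent.P173F.Main
import Vale.Agent.P173F.LBasic
import Vale.Agent.P173F.LH1
import Vale.Agent.P173F.LRet
import Vale.Agent.P173F.LLoc
import Vale.Agent.P173F.Cube
import Vale.Agent.P173F.Lev
import Vale.Agent.P173F.LevEx
import Vale.Agent.P173F.GeomFI

namespace Vale.Agent.Results.P173.AFinitelyGenerated

open Vale.Agent.P173 Vale.Agent.P173F CategoryTheory

universe u v

/-- **The Eilenberg–Ganea conjecture fails for a finitely generated, residually finite group with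
a finite free resolution of length two.** There is a finitely generated residually finite group `Γ`
with `cd Γ = 2` and `gd Γ > 2`; the trivial module has a resolution of length two by finitely
generated free modules; every subgroup of finite index has cohomological dimension two, is not a
subgroup of the fundamental group of an aspherical complex of dimension at most two, and every
group containing it has geometric dimension greater than two. -/
theorem result : ∃ (Γ : Type) (_ : Group Γ), Group.FG Γ ∧ Group.ResiduallyFinite Γ ∧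
    projectiveDimension (Rep.trivial ℤ Γ ℤ) = 2 ∧ ¬ GdLE.{u, v} Γ 2 ∧
    HasFiniteFreeResolutionTwo Γ ∧
    ∀ Δ : Subgroup Γ, Δ.FiniteIndex →
      projectiveDimension (Rep.trivial ℤ Δ ℤ) = 2 ∧ ¬ EmbedsInAspherical.{u, v} Δ 2 ∧
      ∀ (H : Type) [Group H] (f : Δ →* H), Function.Injective f → ¬ GdLE.{u, v} H 2 :=
  have h := LL.main.{u, v} LL_tr.some LL_conn LL_cofin LL_locFin LL_h1 (LL.cubeRet LL_ret) LL_loc
  ⟨LL.GG, inferInstance, h.1, h.2.1, h.2.2.1, h.2.2.2.1,
    LL.fl LL_tr.some.u LL_cofin LL_locFin (LL.rel0 LL_conn LL_tr.some.u) (LL.rel1 LL_h1)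
      (LL.rel2 LL_ret (LL.cubeRet LL_ret)),
    fun Δ _ => LL.main_fi LL_tr.some LL_cofin LL_locFin LL_h1 (LL.cubeRet LL_ret) LL_loc Δ⟩

end Vale.Agent.Results.P173.AFinitelyGenerated
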